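import Vale.Agent.P354J.Defs

/-!
P354 (helper51): the chart map of the cylinder, its inverse, and the Kerr data in the charts.
-/

open scoped ContDiff
open Set Filter Topology Matrix

noncomputable section

namespace Vale.Agent.P354JK

open Vale.Agent.P354H Vale.Agent.P354J
open Vale.Agent.P354C (Ix th eta)
open Vale.Agent.P354I (X ee dT dP Sg bl tw kh)
open Vale.Agent.P354E (sg st stv sti)

theorem phi_smooth (σ : Bool) : ContDiff ℝ ∞ (Phi σ) :=
  (Real.contDiff_exp.comp contDiff_fst).smul ((P354E.stv_smooth σ).comp contDiff_snd)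

/-- The differential of the chart map. -/
def DP (σ : Bool) (z A : X3) : X := fderiv ℝ (Phi σ) z A

theorem fd_comp (σ : Bool) (z A : X3) (i : Fin 3) :
    fderiv ℝ (fun w => Phi σ w i) z A = DP σ z A i := by
  have h := ((EuclideanSpace.proj i : X →L[ℝ] ℝ).hasFDerivAt.comp z
    ((phi_smooth σ).differentiable (by simp) z).hasFDerivAt).fderiv
  exact congrArg (fun L : X3 →L[ℝ] ℝ => L A) h

theorem Jm_eq (σ : Bool) (z : X3) (a i : Fin 3) : Jm σ z a i = DP σ z (e a) i := fd_comp σ z _ i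

/-- The denominator of the stereographic map. -/
def qq (z : X3) : ℝ := 1 + z.2.1 ^ 2 + z.2.2 ^ 2

theorem qq_pos (z : X3) : 0 < qq z := by unfold qq; positivity

theorem phi0 (σ : Bool) (z : X3) : Phi σ z 0 = Real.exp z.1 * (2 * z.2.1 / qq z) := rfl
theorem phi1 (σ : Bool) (z : X3) : Phi σ z 1 = Real.exp z.1 * (2 * z.2.2 / qq z) := rfl
theorem phi2 (σ : Bool) (z : X3) :
    Phi σ z 2 = Real.exp z.1 * (sg σ * ((1 - z.2.1 ^ 2 - z.2.2 ^ 2) / qq z)) := rfl

theorem line {f : X3 → ℝ} {z A : X3} {c : ℝ} (hf : DifferentiableAt ℝ f z)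
    (h : HasDerivAt (fun t : ℝ => f (z.1 + t * A.1, z.2.1 + t * A.2.1, z.2.2 + t * A.2.2)) c 0) :
    fderiv ℝ f z A = c := by
  rw [← hf.lineDeriv_eq_fderiv]
  exact HasLineDerivAt.lineDeriv h

theorem aff (a b : ℝ) : HasDerivAt (fun t : ℝ => a + t * b) b 0 :=
  (((hasDerivAt_id (0 : ℝ)).mul_const b).const_add a).congr_deriv (one_mul b)

theorem DP_eq (σ : Bool) (z A : X3) :
    DP σ z A 0 = Real.exp z.1 * (A.1 * (2 * z.2.1 / qq z) +
      (2 * A.2.1 * qq z - 4 * z.2.1 * (z.2.1 * A.2.1 + z.2.2 * A.2.2)) / qq z ^ 2) ∧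
    DP σ z A 1 = Real.exp z.1 * (A.1 * (2 * z.2.2 / qq z) +
      (2 * A.2.2 * qq z - 4 * z.2.2 * (z.2.1 * A.2.1 + z.2.2 * A.2.2)) / qq z ^ 2) ∧
    DP σ z A 2 = Real.exp z.1 * (sg σ * (A.1 * ((1 - z.2.1 ^ 2 - z.2.2 ^ 2) / qq z) -
      4 * (z.2.1 * A.2.1 + z.2.2 * A.2.2) / qq z ^ 2)) := by
  have d : ∀ i, DifferentiableAt ℝ (fun w => Phi σ w i) z := fun i =>
    (((EuclideanSpace.proj i : X →L[ℝ] ℝ).contDiff.comp (phi_smooth σ)).differentiable
      (by simp) z)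
  have hq := (qq_pos z).ne'
  have e0 := (aff z.1 A.1).exp
  have e1 := aff z.2.1 A.2.1
  have e2 := aff z.2.2 A.2.2
  have e3 := ((e1.pow 2).const_add 1).add (e2.pow 2)
  have hq' : 1 + (z.2.1 + 0 * A.2.1) ^ 2 + (z.2.2 + 0 * A.2.2) ^ 2 ≠ 0 := by positivity
  refine ⟨?_, ?_, ?_⟩ <;> rw [← fd_comp]
  · refine line (d 0) ((e0.mul ((e1.const_mul 2).div e3 hq')).congr_deriv ?_)
    simp only [qq, zero_mul, add_zero, Pi.div_apply, Pi.add_apply, Pi.pow_apply] at hq ⊢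
    field_simp
    ring
  · refine line (d 1) ((e0.mul ((e2.const_mul 2).div e3 hq')).congr_deriv ?_)
    simp only [qq, zero_mul, add_zero, Pi.div_apply, Pi.add_apply, Pi.pow_apply] at hq ⊢
    field_simp
    ring
  · refine line (d 2) ((e0.mul (((((e1.pow 2).const_sub 1).sub (e2.pow 2)).div e3 hq').const_mul
      (sg σ))).congr_deriv ?_)
    simp only [qq, zero_mul, add_zero, Pi.div_apply, Pi.add_apply, Pi.pow_apply, Pi.sub_apply]
      at hq ⊢
    field_simp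
    ring

theorem norm_phi (σ : Bool) (z : X3) : ‖Phi σ z‖ = Real.exp z.1 := by
  rw [Phi, norm_smul, mem_sphere_zero_iff_norm.1 (st σ z.2).2, mul_one,
    Real.norm_of_nonneg (Real.exp_pos _).le]

theorem inner3 (v w : X) : inner ℝ v w = v 0 * w 0 + v 1 * w 1 + v 2 * w 2 := by
  simp only [PiLp.inner_apply, Fin.sum_univ_three, RCLike.inner_apply, conj_trivial]
  ring

theorem dT_DP (σ : Bool) (z A : X3) : dT (Phi σ z) (DP σ z A) = A.1 := by
  obtain ⟨h0, h1, h2⟩ := DP_eq σ z A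
  have hq := (qq_pos z).ne'
  have he := (Real.exp_pos z.1).ne'
  rw [dT, inner3, norm_phi, h0, h1, h2, phi0, phi1, phi2]
  cases σ <;> simp only [sg, cond_true, cond_false] <;> field_simp <;> simp only [qq] <;> ring

theorem dP_DP (σ : Bool) (z A : X3) : dP (Phi σ z) (DP σ z A) = P354R.alp z.2 A.2 := by
  obtain ⟨h0, h1, -⟩ := DP_eq σ z A
  have hq := (qq_pos z).ne'
  have he := (Real.exp_pos z.1).ne'
  rw [dP, norm_phi, h0, h1, phi0, phi1, P354R.alp, show 1 + z.2.1 ^ 2 + z.2.2 ^ 2 = qq z from rfl]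
  field_simp
  ring

theorem inner_DP (σ : Bool) (z A B : X3) : inner ℝ (DP σ z A) (DP σ z B) =
    Real.exp z.1 ^ 2 * (A.1 * B.1 + P354R.rnd z.2 A.2 B.2) := by
  obtain ⟨h0, h1, h2⟩ := DP_eq σ z A
  obtain ⟨k0, k1, k2⟩ := DP_eq σ z B
  have hq := (qq_pos z).ne'
  rw [inner3, h0, h1, h2, k0, k1, k2, P354R.rnd, show 1 + z.2.1 ^ 2 + z.2.2 ^ 2 = qq z from rfl]
  cases σ <;> simp only [sg, cond_true, cond_false] <;> field_simp <;> simp only [qq] <;> ring

theorem rnd_DP (σ : Bool) (z A B : X3) :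
    P354I.rnd (Phi σ z) (DP σ z A) (DP σ z B) = P354R.rnd z.2 A.2 B.2 := by
  have he := (Real.exp_pos z.1).ne'
  rw [P354I.rnd, inner_DP, dT_DP, dT_DP, norm_phi]
  field_simp
  ring

theorem Sg_phi (σ : Bool) (a r : ℝ) (z : X3) :
    Sg a r (Phi σ z) = P354R.Sig a r (P354R.ht σ z.2) := by
  have he := (Real.exp_pos z.1).ne'
  rw [Sg, norm_phi, phi2, mul_pow, mul_div_cancel_left₀ _ (pow_ne_zero 2 he)]
  rfl

theorem tw_DP (σ : Bool) (om : ℝ) (z A : X3) : tw om (Phi σ z) (DP σ z A) =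
    DP σ z (A.1, A.2 + (om * A.1) • P354R.rot z.2) := by
  obtain ⟨h0, h1, h2⟩ := DP_eq σ z A
  obtain ⟨k0, k1, k2⟩ := DP_eq σ z (A.1, A.2 + (om * A.1) • P354R.rot z.2)
  have hq := (qq_pos z).ne'
  rw [tw, dT_DP]
  ext i
  fin_cases i
  · refine Eq.trans ?_ k0.symm
    show DP σ z A 0 + om * A.1 * -Phi σ z 1 = _
    simp only [h0, phi1, P354R.rot, Prod.fst_add, Prod.snd_add, Prod.smul_mk, smul_eq_mul]
    field_simp
    ring
  · refine Eq.trans ?_ k1.symm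
    show DP σ z A 1 + om * A.1 * Phi σ z 0 = _
    simp only [h1, phi0, P354R.rot, Prod.fst_add, Prod.snd_add, Prod.smul_mk, smul_eq_mul]
    field_simp
    ring
  · refine Eq.trans ?_ k2.symm
    show DP σ z A 2 + om * A.1 * 0 = _
    simp only [h2, P354R.rot, Prod.fst_add, Prod.snd_add, Prod.smul_mk, smul_eq_mul]
    field_simp
    ring

theorem sig_pos (a : ℝ) {r : ℝ} (h : 0 < r) (z : ℝ) : 0 < P354R.Sig a r z := by
  unfold P354R.Sig; positivity

theorem bl_DP (M a : ℝ) {r : ℝ} (h : 0 < r) (σ : Bool) (z A B : X3) :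
    bl M a r (Phi σ z) (DP σ z A) (DP σ z B) =
      P354R.kerr M a σ (z.1, r, z.2) (A.1, 0, A.2) (B.1, 0, B.2) := by
  have hs := (sig_pos a h (P354R.ht σ z.2)).ne'
  rw [bl, dT_DP, dT_DP, dP_DP, dP_DP, rnd_DP, Sg_phi]
  simp only [P354R.kerr, mul_zero, add_zero]
  field_simp
  simp only [P354R.Sig, P354R.Del]
  ring

theorem kh_sum (M a r : ℝ) (y v w : X) : ∑ l, (∑ k, v k * kh M a r y k l) * w l =
    bl M a r y (tw (P354R.omm M a) y v) (tw (P354R.omm M a) y w) := by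
  rw [show kh M a r y = fun k l => bl M a r y (tw (P354R.omm M a) y (ee k))
    (tw (P354R.omm M a) y (ee l)) from rfl]
  generalize P354R.omm M a = o
  simp only [bl, P354I.rnd, dT, dP, tw, inner3, ee, Fin.sum_univ_three, PiLp.add_apply,
    PiLp.smul_apply, smul_eq_mul, PiLp.single_apply, Fin.isValue, cons_val_zero,
    cons_val_one, cons_val_two, Fin.reduceEq, if_true, if_false]
  ring

theorem pb_apply (σ : Bool) (F : X → M3) (z : X3) (i j : Fin 3) :
    pb σ F z i j = ∑ l, (∑ k, DP σ z (e i) k * F (Phi σ z) k l) * DP σ z (e j) l := by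
  simp only [pb, Matrix.mul_apply, transpose_apply, Jm_eq]

theorem hK_eq (M a : ℝ) {r : ℝ} (h : 0 < r) (σ : Bool) (z A B : X3) :
    ∑ l, (∑ k, DP σ z A k * kh M a r (Phi σ z) k l) * DP σ z B l = P354R.hK M a r σ z A B := by
  rw [kh_sum, tw_DP, tw_DP, bl_DP M a h]
  rfl

theorem kh_diff (M a : ℝ) {r : ℝ} (h : 0 < r) (y : X) (k l : Fin 3) :
    DifferentiableAt ℝ (fun s => kh M a s y k l) r := by
  have hs : r ^ 2 + a ^ 2 * (y 2 ^ 2 / ‖y‖ ^ 2) ≠ 0 := by positivity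
  unfold kh bl Sg
  fun_prop (disch := exact hs)

/-- **KER.** -/
theorem ker : KER := by
  intro M a r0 h σ z i j
  refine ⟨(pb_apply ..).trans (hK_eq M a h σ z _ _), ?_⟩
  have ev : (fun s => P354R.hK M a s σ z (e i) (e j)) =ᶠ[𝓝 r0] fun s =>
      ∑ l, (∑ k, DP σ z (e i) k * kh M a s (Phi σ z) k l) * DP σ z (e j) l := by
    filter_upwards [Ioi_mem_nhds h] with s hs
    exact (hK_eq M a hs σ z _ _).symm
  have hd := (HasDerivAt.fun_sum (u := Finset.univ) fun l _ =>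
    (HasDerivAt.fun_sum (u := Finset.univ) fun k _ =>
      (kh_diff M a h (Phi σ z) k l).hasDerivAt.const_mul (DP σ z (e i) k)).mul_const
        (DP σ z (e j) l)).deriv
  rw [pb_apply, P354R.kK, ev.deriv_eq, hd, ← Sg_phi, ← neg_div]
  simp only [P354I.kerr, of_apply, P354R.Del, Finset.mul_sum, Finset.sum_mul]
  exact Finset.sum_congr rfl fun l _ => Finset.sum_congr rfl fun k _ => by ring

/-- The components of a vector of the chart. -/
def cx (a : X3) : Fin 3 → ℝ := ![a.1, a.2.1, a.2.2]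

theorem eq_sum (a : X3) : a = ∑ i, cx a i • e i := by
  simp [cx, e, Fin.sum_univ_three]

theorem th_lin (U : Ix → ℝ) (a : X3) (i : Fin 4) :
    th U (0, a) i = ∑ c, cx a c * th U (0, e c) i := by
  fin_cases i <;> simp [th, cx, e, Fin.sum_univ_three] <;> ring

theorem hf_lin (U : Ix → ℝ) (a b : X3) :
    hf U a b = ∑ d, (∑ c, cx a c * hf U (e c) (e d)) * cx b d := by
  simp only [hf, eta, th_lin U a, th_lin U b, Fin.sum_univ_three]
  ring

theorem Kf_lin (U : Ix → ℝ) (a b : X3) :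
    Kf U a b = ∑ d, (∑ c, cx a c * Kf U (e c) (e d)) * cx b d := by
  simp only [Kf, th_lin U a, th_lin U b, Fin.sum_univ_three, Fin.sum_univ_four]
  ring

theorem DP_sum (σ : Bool) (z a : X3) (l : Fin 3) : ∑ c, cx a c * DP σ z (e c) l = DP σ z a l := by
  conv_rhs => rw [eq_sum a]
  simp [DP, map_sum]

theorem pb_lin (σ : Bool) (F : X → M3) (z a b : X3) :
    ∑ d, (∑ c, cx a c * pb σ F z c d) * cx b d =
      ∑ l, (∑ k, DP σ z a k * F (Phi σ z) k l) * DP σ z b l := by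
  simp only [pb_apply, ← DP_sum σ z a, ← DP_sum σ z b, Fin.sum_univ_three]
  ring

theorem den_phi (σ : Bool) (z : X3) :
    ‖Phi σ z‖ + sg σ * Phi σ z 2 = Real.exp z.1 * (2 / qq z) := by
  have h := P354E.st_den σ z.2
  rw [norm_phi, show Phi σ z 2 = Real.exp z.1 * (st σ z.2).1 2 from rfl,
    show 2 / qq z = _ from h.symm]
  ring

theorem psi_phi (σ : Bool) (z : X3) : Psi σ (Phi σ z) = z := by
  have hq := (qq_pos z).ne'
  have he := (Real.exp_pos z.1).ne'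
  unfold Psi
  rw [den_phi, norm_phi, Real.log_exp, phi0, phi1]
  ext
  · rfl
  · simp only; field_simp
  · simp only; field_simp

theorem phi_psi (σ : Bool) {y : X} (hy : y ≠ 0) (h : ‖y‖ + sg σ * y 2 ≠ 0) :
    Phi σ (Psi σ y) = y := by
  have hn : 0 < ‖y‖ := norm_pos_iff.2 hy
  let w : P354E.S2 := ⟨‖y‖⁻¹ • y, by
    rw [mem_sphere_zero_iff_norm, norm_smul, norm_inv, norm_norm, inv_mul_cancel₀ hn.ne']⟩
  have e0 : ∀ i, w.1 i = ‖y‖⁻¹ * y i := fun i => rfl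
  have e1 : 1 + sg σ * w.1 2 = ‖y‖⁻¹ * (‖y‖ + sg σ * y 2) := by
    rw [e0]; field_simp
  have e2 : (Psi σ y).2 = sti σ w := by
    simp only [Psi, sti]
    rw [e1, e0, e0, mul_div_mul_left _ _ (inv_ne_zero hn.ne'),
      mul_div_mul_left _ _ (inv_ne_zero hn.ne')]
  have e3 : w ∈ P354E.src σ := by
    show 1 + sg σ * w.1 2 ≠ 0
    rw [e1]
    exact mul_ne_zero (inv_ne_zero hn.ne') h
  rw [Phi, e2, P354E.st_sti σ e3, show (Psi σ y).1 = Real.log ‖y‖ from rfl, Real.exp_log hn]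
  exact smul_inv_smul₀ hn.ne' y

theorem psi_smooth (σ : Bool) {y : X} (hy : y ≠ 0) (h : ‖y‖ + sg σ * y 2 ≠ 0) :
    ContDiffAt ℝ ∞ (Psi σ) y := by
  have n : ContDiffAt ℝ ∞ (fun y : X => ‖y‖) y := contDiffAt_norm ℝ hy
  have c : ∀ i, ContDiffAt ℝ ∞ (fun y : X => y i) y := fun i =>
    (EuclideanSpace.proj i : X →L[ℝ] ℝ).contDiff.contDiffAt
  have d := n.add (contDiffAt_const (c := sg σ).mul (c 2))
  exact (n.log (norm_ne_zero_iff.2 hy)).prodMk (((c 0).div d h).prodMk ((c 1).div d h))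

theorem DP_psi (σ : Bool) {y : X} (hy : y ≠ 0) (h : ‖y‖ + sg σ * y 2 ≠ 0) (v : X) :
    DP σ (Psi σ y) (fderiv ℝ (Psi σ) y v) = v := by
  have ev : Phi σ ∘ Psi σ =ᶠ[𝓝 y] id := by
    have c : Continuous fun y : X => ‖y‖ + sg σ * y 2 := by fun_prop
    filter_upwards [isOpen_ne.mem_nhds hy, c.continuousAt.eventually_ne h] with u h1 h2
    exact phi_psi σ h1 h2
  have k := ev.fderiv_eq (𝕜 := ℝ)
  rw [fderiv_comp y ((phi_smooth σ).differentiable (by simp) _)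
    ((psi_smooth σ hy h).differentiableAt (by simp)), fderiv_id] at k
  exact congrArg (fun L : X →L[ℝ] X => L v) k

theorem pb_psi (σ : Bool) {y : X} (hy : y ≠ 0) (h : ‖y‖ + sg σ * y 2 ≠ 0) (F : X → M3)
    (i k : Fin 3) : ∑ d, (∑ c, cx (P354I.pd i (Psi σ) y) c * pb σ F (Psi σ y) c d) *
      cx (P354I.pd k (Psi σ) y) d = F y i k := by
  rw [pb_lin, P354I.pd, P354I.pd, DP_psi σ hy h, DP_psi σ hy h, phi_psi σ hy h]
  simp [ee]

/-- **INV.** -/
theorem inv : INV := by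
  refine fun σ => ⟨fun z => ⟨norm_pos_iff.1 (norm_phi σ z ▸ Real.exp_pos _), ?_, psi_phi σ z⟩,
    fun y hy h => ⟨phi_psi σ hy h, psi_smooth σ hy h, fun d U hU i k => ⟨?_, ?_⟩⟩⟩
  · have := qq_pos z
    rw [den_phi]
    positivity
  · rw [hf_lin, ← pb_psi σ hy h d.h i k]
    simp only [fun a b => (hU a b).1]
  · rw [Kf_lin, ← pb_psi σ hy h d.K i k]
    simp only [fun a b => (hU a b).2]

end Vale.Agent.P354JK
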